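import Vale.Agent.P251.M.BUPair

/-!
# P241, KP3: the classes `β_m` at the smallest stage

`exists_beta` : in the abstract setting of `BUData` (Grassmannians in the category of free modules)
there is `β : S^m ⟶ g 1 (m + 1)` with `⟨x^m, β⟩ = 1`, where `g 1 (m + 1) = ℂP^m`.
-/

open CategoryTheory MonoidalCategory Limits Vale.Agent.P251.M

universe v u

noncomputable section

namespace Vale.Agent.P241.H795

variable {D : Type u} [Category.{v} D] [Preadditive D] [MonoidalCategory D]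
    [SymmetricCategory D] [MonoidalPreadditive D] (B : BUData D)

/-- the boundary of a class on the Thom space which comes from the previous stage vanishes -/
theorem map_c_eq_zero {W : D} (N : ℕ) (x : W ⟶ (B.th 1).obj N) :
    (x ≫ (B.th 1).map (homOfLE (Nat.le_succ N))) ≫ (B.c 1).app (N + 1) = 0 := by
  have h1 : (B.th 1).map (homOfLE (Nat.le_succ N)) ≫ (B.c 1).app (N + 1) =
      (B.c 1).app N ≫ ((B.s 1).map (homOfLE (Nat.le_succ N)) ▷ B.R1) :=
    (B.c 1).naturality (homOfLE (Nat.le_succ N))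
  have h2 : (B.s 1).map (homOfLE (Nat.le_succ N)) =
      (B.p 1).app N ≫ (B.aug N ≫ (B.pt0 N).hom ≫ B.a 0 N) := by
    have h3 := B.b_a 0 N
    have h4 := B.p_aug N
    rw [← h4] at h3
    rw [← h3]
    simp only [Category.assoc]
  rw [Category.assoc, h1, h2, comp_whiskerRight, reassoc_of% (B.c_p 1 N), zero_comp, comp_zero]

/-- every class of the form `y ⊗ S^1` at the next stage is a cap product -/
theorem exists_lift {W : D} (N : ℕ) (x : W ⟶ (B.g 1).obj N ⊗ B.S ((1 : ℕ) : ℤ)) :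
    ∃ y : W ⟶ (B.g 1).obj (N + 1),
      y ≫ (B.zz 1).app (N + 1) =
        x ≫ ((B.g 1).map (homOfLE (Nat.le_succ N)) ▷ B.S ((1 : ℕ) : ℤ)) := by
  obtain ⟨y, hy⟩ := B.ex_th 1 (N + 1) _ (map_c_eq_zero B N (x ≫ (B.θ 1).inv.app N))
  refine ⟨y, ?_⟩
  have h1 : (B.zz 1).app (N + 1) = (B.z 1).app (N + 1) ≫ (B.θ 1).hom.app (N + 1) := rfl
  have h2 : (B.th 1).map (homOfLE (Nat.le_succ N)) ≫ (B.θ 1).hom.app (N + 1) =
      (B.θ 1).hom.app N ≫ ((B.g 1).map (homOfLE (Nat.le_succ N)) ▷ B.S ((1 : ℕ) : ℤ)) :=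
    (B.θ 1).hom.naturality (homOfLE (Nat.le_succ N))
  have h3 : (B.θ 1).inv.app N ≫ (B.θ 1).hom.app N = 𝟙 _ := (B.θ 1).inv_hom_id_app N
  rw [h1, ← Category.assoc, hy, Category.assoc, Category.assoc, h2, reassoc_of% h3]

/-- **The class `β_m` on `ℂP^m`.** -/
theorem exists_beta (m : ℕ) :
    ∃ β : B.S ((m : ℕ) : ℤ) ⟶ (B.g 1).obj (m + 1), β ≫ B.xp m (m + 1) = 𝟙 _ := by
  induction m with
  | zero =>
    refine ⟨B.e0N.inv ≫ B.pt1, ?_⟩
    have h := B.pt1_aug
    rw [BUData.xp_zero, Category.assoc, reassoc_of% h, Iso.inv_hom_id]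
  | succ m ih =>
    obtain ⟨β, hβ⟩ := ih
    obtain ⟨y, hy⟩ := exists_lift B (m + 1)
      ((B.mu _ _ _ (BUData.natCast_add_one m)).inv ≫ (β ▷ B.S ((1 : ℕ) : ℤ)))
    refine ⟨y, ?_⟩
    have h1 : (B.g 1).map (homOfLE (Nat.le_succ (m + 1))) ≫ B.xp m (m + 1 + 1) =
        B.xp m (m + 1) := B.xp_map m (Nat.le_succ (m + 1))
    rw [BUData.xp_succ, reassoc_of% hy, ← comp_whiskerRight_assoc, ← comp_whiskerRight_assoc,
      Category.assoc, h1, hβ, id_whiskerRight, Category.id_comp, Iso.inv_hom_id]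

end Vale.Agent.P241.H795
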