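import Vale.Agent.P251.M.BUCap
import Vale.Agent.P251.M.MUBasisV
import Vale.Agent.P241.H795.Beta

/-!
# P241, KP3: the powers of the Euler class stay nonzero

`push_xpT_ne` : `R` a commutative monoid with Thom classes `C`, `u : R ⟶ K` a map of monoids (`K`
not necessarily commutative) and `η[K] ≠ 0`; then the push-forward of `x^m ∈ R^{2m}(ℂP^m)` to
`K^{2m}(ℂP^m)` is not zero.
-/

set_option linter.unusedSectionVars false

open CategoryTheory MonoidalCategory Limits Pretriangulated MonObj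
open Vale.Agent.P251 Vale.Agent.P251.G Vale.Agent.P251.G.LC Vale.Agent.P251.I
open Vale.Agent.P251.T Vale.Agent.P251.M Vale.Agent.P251.M.EvenSpheres

universe v u

noncomputable section

namespace Vale.Agent.P241.H795

variable {T : Type u} [Category.{v} T] [Preadditive T] [HasZeroObject T]
    [HasShift T ℤ] [∀ n : ℤ, (shiftFunctor T n).Additive] [Pretriangulated T]
    [MonoidalCategory T] [SymmetricCategory T] [TensorTriangulated T]

theorem eq_zero_of_whiskerRight_S (E : EvenSpheres T) {X Y : T} (f : X ⟶ Y) (i : ℤ)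
    (h : f ▷ E.S i = 0) : f = 0 := by
  have h1 : f ▷ (E.S i ⊗ E.S (-i)) = 0 := by
    rw [whiskerRight_tensor, h, MonoidalPreadditive.zero_whiskerRight, zero_comp, comp_zero]
  have h2 : (f ▷ 𝟙_ T) ≫ (Y ◁ (E.unitIso i).hom) = 0 := by
    rw [← whisker_exchange, h1, comp_zero]
  have h3 : f ▷ 𝟙_ T = 0 := by
    have h4 := congrArg (· ≫ (Y ◁ (E.unitIso i).inv)) h2
    simpa using h4
  have h4 : f = (ρ_ X).inv ≫ (f ▷ 𝟙_ T) ≫ (ρ_ Y).hom := by simp
  rw [h4, h3, zero_comp, comp_zero]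

theorem unit_ne_zero (E : EvenSpheres T) {K : T} [MonObj K] (hK : η[K] ≠ 0) (i : ℤ) :
    FM.unit K (E.S i) ≠ 0 := by
  intro h
  apply hK
  apply eq_zero_of_whiskerRight_S E η[K] i
  rw [FM.unit] at h
  have h1 := congrArg (fun t => (λ_ (E.S i)).hom ≫ t) h
  simpa using h1

variable {S : SpaceFunctor T} {E : EvenSpheres T} {e : S.S.obj CCF ≅ E.L}
  {R : T} [MonObj R] [IsCommMonObj R] (C : ThomSys.Cls (thomSys S E e) R) {K : T} [MonObj K]

/-- `β_m ∈ R_{2m}(ℂP^m)` with `⟨x^m, β_m⟩ = 1`, as a map of objects of `T`. -/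
theorem exists_betaT (m : ℕ) :
    ∃ β : E.S ((m : ℕ) : ℤ) ⟶ R ⊗ ob S.S (GrO 1 (Fin (m + 1))),
      β ≫ FM.bind (xpT C m (m + 1)) = FM.unit R (E.S ((m : ℕ) : ℤ)) := by
  obtain ⟨β, hβ⟩ := exists_beta (buDataK C) m
  exact ⟨FM.Hom.hom β, congrArg FM.Hom.hom hβ⟩

theorem push_xpT_ne (u : R ⟶ K) [IsMonHom u] (hK : η[K] ≠ 0) (m : ℕ) :
    xpT C m (m + 1) ≫ (u ▷ E.S ((m : ℕ) : ℤ)) ≠ 0 := by
  intro h0
  obtain ⟨β, hβ⟩ := exists_betaT C m
  apply unit_ne_zero E hK ((m : ℕ) : ℤ)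
  rw [← FM.unit_push u, ← hβ, Category.assoc, FM.bind_push, h0]
  have h1 : FM.bind (0 : ob S.S (GrO 1 (Fin (m + 1))) ⟶ K ⊗ E.S ((m : ℕ) : ℤ)) = 0 := by
    rw [FM.bind, MonoidalPreadditive.whiskerLeft_zero, zero_comp]
  rw [h1, comp_zero, comp_zero]

end Vale.Agent.P241.H795
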