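import Vale.Agent.P251.M.BGlueD
import Vale.Agent.P251.Z.OrFam
import Vale.Agent.P241.H795.PushNe

/-!
# P241, KP3: a coefficient of the `p`-series of index `≤ N + 1` survives in `K`

`R` a commutative oriented monoid, `u : R ⟶ K` a map of monoids (`K` not necessarily commutative),
`η[K] ≠ 0`. If the vanishing of the push-forward of the Euler class of `γ^{⊗ p}` on `ℂP^{N+1}`
implies the vanishing of the push-forward of `x^{N+1}`, then one of the coefficients
`c_0, …, c_{N+1}` of the `p`-series of `R` has a nonzero image in the homotopy ring of `K`.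
-/

set_option linter.unusedSectionVars false
set_option linter.style.haveILetI false

open CategoryTheory MonoidalCategory Limits Pretriangulated MonObj
open Vale.Agent.P251 Vale.Agent.P251.G Vale.Agent.P251.G.LC Vale.Agent.P251.I
open Vale.Agent.P251.T Vale.Agent.P251.F Vale.Agent.P217
open Vale.Agent.P251.S (ModStr Sc scMul)
open Functor.OplaxMonoidal Functor.LaxMonoidal
open Vale.Agent.P251.M Vale.Agent.P251.M.EvenSpheres

universe v u

noncomputable section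

namespace Vale.Agent.P241.H795

variable {T : Type u} [Category.{v} T] [Preadditive T] [HasZeroObject T]
    [HasShift T ℤ] [∀ n : ℤ, (shiftFunctor T n).Additive] [Pretriangulated T] [IsTriangulated T]
    [MonoidalCategory T] [SymmetricCategory T] [TensorTriangulated T] [MonoidalClosed T]
    [HasCoproducts.{0} T] [HasProducts.{0} T] [StableCat T]
  {E : EvenSpheres T} {F : SpaceFunctor T} {e : F.S.obj CCF ≅ E.L}
  {R : T} [MonObj R] [IsCommMonObj R] {K : T} [MonObj K]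

/-- push-forward of scalar multiples -/
theorem smul_push_eq_zero {R K P W : T} [MonObj R] [MonObj K] [MonObj P] (u : R ⟶ K) [IsMonHom u]
    (y : W ⟶ R ⊗ P) (x : 𝟙_ T ⟶ R ⊗ P) (hx : x ≫ u ▷ P = 0) :
    (y ≫ (ModStr.self (R ⊗ P)).smul x) ≫ u ▷ P = 0 := by
  have h1 : μ[R ⊗ P] ≫ u ▷ P = ((u ▷ P) ⊗ₘ (u ▷ P)) ≫ μ[K ⊗ P] := IsMonHom.mul_hom (u ▷ P)
  rw [smul_self_eq, Category.assoc, Category.assoc, h1, tensorHom_comp_tensorHom_assoc, hx,
    MonoidalPreadditive.zero_tensor, zero_comp, comp_zero]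

theorem sharpTot_push (u : R ⟶ K) [IsMonHom u] (x : HRing E R) :
    sharpTot E R x ≫ u ▷ E.PS = sharpTot E K (HRing.map u x) := by
  have key : (Preadditive.rightComp (𝟙_ T) (u ▷ E.PS)).comp (sharpTot E R) =
      (sharpTot E K).comp (HRing.map (E := E) u).toAddMonoidHom := by
    refine DirectSum.addHom_ext fun n a => ?_
    refine (congrArg (· ≫ u ▷ E.PS) (sharpTot_of n a)).trans ?_
    refine (sharp_comp a u).symm.trans ?_
    refine (sharpTot_of n (a ≫ u)).symm.trans ?_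
    exact congrArg (sharpTot E K) (HRing.map_of u n a).symm
  exact DFunLike.congr_fun key x

theorem tU_smul_push_eq_zero (X : FCat) (a : (thK e R).A) (x : (thK e R).U X.obj) (u : R ⟶ K)
    [IsMonHom u] (ha : HRing.map u (coefK e R a) = 0) :
    tU e R X (a • x) ≫ u ▷ E.PS = 0 := by
  rw [tU_smul e X a x]
  refine smul_push_eq_zero u _ _ ?_
  rw [sharpTot_push, ha, map_zero]

/-- If the images in `K` of the coefficients of `f` of index `≤ N` vanish, then the push-forward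
of `f(z)` on `ℂP^N` vanishes. -/
theorem tU_nev1_push_eq_zero (o : Q.Orientation (thK e R)) (u : R ⟶ K) [IsMonHom u]
    (f : PowerSeries (thK e R).A) (N : ℕ)
    (hf : ∀ l < N, HRing.map u (coefK e R (PowerSeries.coeff l f)) = 0) :
    tU e R (grX N) (Q.nev1 (o.z (Fin N)) f) ≫ u ▷ E.PS = 0 := by
  have h0 : (o.z (Fin N)) ^ N = 0 := Q.z_pow_eq_zero o N (Fin N) (by simp)
  rw [Q.nev1_eq_sum h0]
  refine (congrArg (· ≫ u ▷ E.PS) (map_sum (tU e R (grX N)) _ _)).trans ?_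
  refine (Preadditive.sum_comp _ _ _).trans ?_
  exact Finset.sum_eq_zero fun l hl =>
    tU_smul_push_eq_zero (grX N) _ _ u (hf l (Finset.mem_range.mp hl))

/-- The push-forward of `z ^ N` on `ℂP^N` is not zero. -/
theorem tU_zpow_push_ne_zero (C : ThomSys.Cls (thomSys F E e) R) (o : Q.Orientation (thK e R))
    (hz : ∀ N, tU e R (grX N) (o.z (Fin N)) = eulT C N ≫ R ◁ E.inPS ((1 : ℕ) : ℤ))
    (u : R ⟶ K) [IsMonHom u] (hK : η[K] ≠ 0) (N : ℕ) :
    tU e R (grX (N + 1)) (o.z (Fin (N + 1)) ^ N) ≫ u ▷ E.PS ≠ 0 := by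
  intro h
  rw [tU_zpow C o (N + 1) (hz _) N, Category.assoc, whisker_exchange, ← Category.assoc] at h
  refine push_xpT_ne C u hK N ?_
  apply cancel_inPS
  rw [h, zero_comp]

theorem exists_coeff_ne (C : ThomSys.Cls (thomSys F E e) R) (o : Q.Orientation (thK e R))
    (hz : ∀ N, tU e R (grX N) (o.z (Fin N)) = eulT C N ≫ R ◁ E.inPS ((1 : ℕ) : ℤ))
    (u : R ⟶ K) [IsMonHom u] (hK : η[K] ≠ 0) (f : PowerSeries (thK e R).A) (N : ℕ)
    (h : tU e R (grX (N + 2)) (Q.nev1 (o.z (Fin (N + 2))) f) ≫ u ▷ E.PS = 0 →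
      tU e R (grX (N + 2)) (o.z (Fin (N + 2)) ^ (N + 1)) ≫ u ▷ E.PS = 0) :
    ∃ l ≤ N + 1, HRing.map u (coefK e R (PowerSeries.coeff l f)) ≠ 0 := by
  by_contra hc
  push Not at hc
  exact tU_zpow_push_ne_zero C o hz u hK (N + 1)
    (h (tU_nev1_push_eq_zero o u f (N + 2) fun l hl => hc l (by omega)))

/-! ### In terms of the Thom classes -/

theorem tU_tuel {X : LC} (hX : FC X) (k : ℤ) (x : F.S.obj ⟨X, hX⟩ ⟶ R ⊗ E.S k) :
    tU e R ⟨X, hX⟩ (tuel (cofTriangles F) (isSusp_lineCls e (SeqMonoid.const R)) hX k x) =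
      x ≫ R ◁ E.inPS k :=
  tK_tof k (MSys.cls (M := RSys R E) 0 x)

variable (e)

/-- **A coefficient of index `≤ N + 1` of the `p`-series survives.** -/
theorem exists_multSeries_ne (o : Z.Oriented F R) (u : R ⟶ K) [IsMonHom u] (hK : η[K] ≠ 0)
    (p N : ℕ)
    (h : ∀ (t : LC.of (Gr 1 (Fin (N + 2))) ⟶ LC.of (Th 1 (Fin p → Fin (N + 2))))
        (_ : Z.IsTensorPower p t)
        (g : LC.of (Gr 1 (Fin (N + 2))) ⟶ LC.of (Th (N + 1) (Fin (N + 1) × Fin (N + 2))))
        (_ : Z.IsMultiple (N + 1) g),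
        Z.sus F (X := Z.grF 1 (Fin (N + 2))) (Y := Z.thF 1 (Fin p → Fin (N + 2))) t ≫ o.θ 1 _ ≫
            u ▷ Z.SC F 1 = 0 →
          Z.sus F (X := Z.grF 1 (Fin (N + 2))) (Y := Z.thF (N + 1) (Fin (N + 1) × Fin (N + 2))) g ≫
            o.θ (N + 1) _ ≫ u ▷ Z.SC F (N + 1) = 0) :
    ∃ l ≤ N + 1, HRing.map u (coefK e R (PowerSeries.coeff l (multSeries
      ((Z.famK e o).orientation (cofTriangles F)
        (isSusp_lineCls e (SeqMonoid.const R))).law.toFG p))) ≠ 0 := by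
  set O := (Z.famK e o).orientation (cofTriangles F) (isSusp_lineCls e (SeqMonoid.const R)) with hO
  haveI := O.goodGr
  haveI : (thK e R).Good (Q.CP (Fin (N + 2))) := ⟨Q.MultTheory.GoodGr.gr 1 _⟩
  refine exists_coeff_ne (clsOfFam e (Z.famK e o)) O
    (fun M => tU_z_fam (Z.famK e o) (clsOfFam e (Z.famK e o)) M rfl) u hK _ N fun h0 => ?_
  have ht := Z.isTensorPower_map p (Fin (N + 2))
  have hg := Z.isMultiple_map (N + 1) (Fin (N + 2))
  have hW : Z.IsFam (Z.sphId e) o (Z.famK e o) := Z.isFam_famK e o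
  have h1 : (thK e R).map (Z.tensorPowerMap p (Fin (N + 2))) (O.tau 1 (Fin p → Fin (N + 2))) =
      Q.nev1 (O.z (Fin (N + 2))) (multSeries O.law.toFG p) := by
    rw [Q.map_tensorPower O p _ ht, Q.lc_tpow, Q.lc_id]
  have h2 : (thK e R).map (Z.multipleMap (N + 1) (Fin (N + 2)))
      (O.tau (N + 1) (Fin (N + 1) × Fin (N + 2))) = O.z (Fin (N + 2)) ^ (N + 1) :=
    Q.map_multiple O N _ hg
  have hT := Z.Cells.gr 1 (Fin (N + 2))
  have h3 : tU e R (grX (N + 2)) (Q.nev1 (O.z (Fin (N + 2))) (multSeries O.law.toFG p)) =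
      (Z.sus F (X := Z.grF 1 (Fin (N + 2))) (Y := Z.thF 1 (Fin p → Fin (N + 2)))
        (Z.tensorPowerMap p (Fin (N + 2))) ≫ o.θ 1 _ ≫ R ◁ ((Z.sphId e).iso 1).hom) ≫
          R ◁ E.inPS ((1 : ℕ) : ℤ) := by
    rw [← h1, hW.map_tau hT]
    exact tU_tuel hT _ _
  have h4 : tU e R (grX (N + 2)) (O.z (Fin (N + 2)) ^ (N + 1)) =
      (Z.sus F (X := Z.grF 1 (Fin (N + 2))) (Y := Z.thF (N + 1) (Fin (N + 1) × Fin (N + 2)))
        (Z.multipleMap (N + 1) (Fin (N + 2))) ≫ o.θ (N + 1) _ ≫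
          R ◁ ((Z.sphId e).iso (N + 1)).hom) ≫ R ◁ E.inPS ((N + 1 : ℕ) : ℤ) := by
    rw [← h2, hW.map_tau hT]
    exact tU_tuel hT _ _
  rw [h3] at h0
  rw [h4]
  have key : ∀ {A B : T} {k : ℤ} (f : A ⟶ R ⊗ B) (i : B ≅ E.S k),
      ((f ≫ R ◁ i.hom) ≫ R ◁ E.inPS k) ≫ u ▷ E.PS = 0 ↔ f ≫ u ▷ B = 0 := by
    intro A B k f i
    have h6 : ((f ≫ R ◁ i.hom) ≫ R ◁ E.inPS k) ≫ u ▷ E.PS =
        ((f ≫ u ▷ B) ≫ K ◁ i.hom) ≫ K ◁ E.inPS k := by
      simp only [Category.assoc]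
      rw [whisker_exchange, whisker_exchange_assoc]
    rw [h6]
    constructor
    · intro h7
      have h8 : (f ≫ u ▷ B) ≫ K ◁ i.hom = 0 := cancel_inPS (by rw [h7, zero_comp])
      have h9 := congrArg (· ≫ K ◁ i.inv) h8
      simpa only [Category.assoc, ← MonoidalCategory.whiskerLeft_comp, Iso.hom_inv_id,
        MonoidalCategory.whiskerLeft_id, Category.comp_id, zero_comp] using h9
    · intro h7
      rw [h7, zero_comp, zero_comp]
  rw [← Category.assoc (Z.sus F _), key, Category.assoc] at h0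
  rw [← Category.assoc (Z.sus F _), key, Category.assoc]
  exact h _ ht _ hg h0

end Vale.Agent.P241.H795
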