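import Vale.Agent.P251.X.Defs

/-!
# P241, KP: associative Morava `K`-theories under `MU`, internal form

`KA D p n K` : `K` is an associative monoid (not necessarily commutative) with
`π_* K = 𝔽_p[v, v⁻¹]`, and `u : D.R ⟶ K` a map of monoids such that `v_i ↦ 0` for `i < n` and
`v_n` becomes a unit of `π_* K`. Here `v_i` is the coefficient of `x^(p^i)` in the `p`-series of
the formal group law of `D.R = MU`.
-/

open CategoryTheory MonoidalCategory Limits Pretriangulated MonObj
open Vale.Agent.P251 Vale.Agent.P251.T Vale.Agent.P251.M Vale.Agent.P251.M.EvenSpheres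
open Vale.Agent.P251.F Vale.Agent.P251.I

universe v u

noncomputable section

namespace Vale.Agent.P241.H795

variable {T : Type u} [Category.{v} T] [Preadditive T] [HasZeroObject T]
    [HasShift T ℤ] [∀ n : ℤ, (shiftFunctor T n).Additive] [Pretriangulated T] [IsTriangulated T]
    [MonoidalCategory T] [SymmetricCategory T] [TensorTriangulated T] [MonoidalClosed T]
    [HasCoproducts.{0} T] [HasProducts.{0} T] [StableCat T]

/-- An associative Morava `K`-theory of height `n` at the prime `p`, as a monoid under `MU`. -/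
structure KA (D : MUData T) (p n : ℕ) (K : T) [MonObj K] where
  /-- the structure map -/
  u : D.R ⟶ K
  [hom : IsMonHom u]
  odd : X.Odd0 K
  sparse (m : ℤ) (hm : ¬ ((p : ℤ) ^ n - 1 ∣ m)) (f : (stdEven T).S m ⟶ K) : f = 0
  char : (p : ℤ) • η[K] = 0
  ne : η[K] ≠ 0
  gen (f : 𝟙_ T ⟶ K) : ∃ a : ℤ, f = a • η[K]
  vv_lt (i : ℕ) (hi : i < n) : HRing.map u (vv p i D.law) = 0
  vv_unit : IsUnit (HRing.map u (vv p n D.law))

attribute [instance] KA.hom

end Vale.Agent.P241.H795
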