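import Vale.Agent.P251.Z.KRingOf
import Vale.Agent.P251.F.Height
import Vale.Agent.P241.H795.KA

/-!
# P241, KP3: the homotopy ring of an associative Morava `K`-theory

* `isUnit_of_ne_zero` : in a homotopy ring with `π_0 = 𝔽_p`, a nonzero element of the degree of a
  one-sided invertible element is a unit;
* `KA.mk'` : `v_i ↦ 0` for `i < n` is automatic, and `v_n` becomes a unit as soon as some
  coefficient of the `p`-series of index `≤ p^n` survives.
-/

set_option linter.unusedSectionVars false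

open CategoryTheory MonoidalCategory Limits Pretriangulated
open Vale.Agent.P251 Vale.Agent.P251.T Vale.Agent.P251.M Vale.Agent.P251.M.EvenSpheres
open Vale.Agent.P251.F Vale.Agent.P251.I Vale.Agent.P217

universe v u

noncomputable section

namespace Vale.Agent.P241.H795

/-- pure algebra: `A V = 1`, `V A` and `A G` integers, `p = 0` -/
theorem isUnit_of_rel {B : Type*} [Ring B] {p : ℕ} [Fact p.Prime] (hp : (p : ℤ) • (1 : B) = 0)
    (A V G : B) (h1 : A * V = 1) (c : ℤ) (h2 : V * A = c • (1 : B)) (b : ℤ)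
    (h5 : A * G = b • (1 : B)) (hg : G ≠ 0) : IsUnit G := by
  have h3 : (1 : B) = c • 1 := by
    calc (1 : B) = A * V * (A * V) := by rw [h1, one_mul]
      _ = A * (V * A) * V := by simp only [mul_assoc]
      _ = c • 1 := by rw [h2, mul_smul_comm, mul_one, smul_mul_assoc, h1]
  have h4 : V * A = 1 := by rw [h2, ← h3]
  have h6 : G = b • V := by
    calc G = V * A * G := by rw [h4, one_mul]
      _ = b • V := by rw [mul_assoc, h5, mul_smul_comm, mul_one]
  have hb : ¬ (p : ℤ) ∣ b := by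
    rintro ⟨k, rfl⟩
    apply hg
    rw [h6, mul_comm, mul_smul, ← one_mul V, ← smul_mul_assoc, hp, zero_mul, smul_zero]
  have hcop : IsCoprime b (p : ℤ) :=
    (((Nat.prime_iff_prime_int.mp (Fact.out : p.Prime)).coprime_iff_not_dvd).mpr hb).symm
  obtain ⟨b', k, hbk⟩ := hcop
  have h7 : (b' * b) • (1 : B) = 1 := by
    have : (b' * b + k * p) • (1 : B) = 1 := by rw [hbk, one_smul]
    rwa [add_smul, mul_smul k, hp, smul_zero, add_zero] at this
  refine isUnit_iff_exists.mpr ⟨b' • A, ?_, ?_⟩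
  · rw [h6, smul_mul_assoc, mul_smul_comm, h4, smul_smul, mul_comm b b', h7]
  · rw [h6, smul_mul_assoc, mul_smul_comm, h1, smul_smul, h7]

section one

open MonObj

variable {T : Type u} [Category.{v} T] [Preadditive T] [MonoidalCategory T]
  [MonoidalPreadditive T] [SymmetricCategory T] {E : EvenSpheres T} {K : T} [MonObj K]

theorem zsmul_of (n : ℤ) (c : ℤ) (x : E.S n ⟶ K) :
    HRing.of E K n (c • x) = c • HRing.of E K n x :=
  map_zsmul (DirectSum.of (E.Gr K) n) c x

theorem zsmul_one_eq_zero {c : ℤ} (h : c • η[K] = 0) : c • (1 : HRing E K) = 0 := by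
  rw [← of_one (E := E) (R := K), ← zsmul_of, ← Preadditive.comp_zsmul, h, comp_zero]
  exact map_zero (DirectSum.of (E.Gr K) 0)

/-- the classes of degree zero are multiples of the unit -/
theorem exists_zsmul_one (gen : ∀ f : 𝟙_ T ⟶ K, ∃ a : ℤ, f = a • η[K]) (x : E.S 0 ⟶ K) :
    ∃ c : ℤ, HRing.of E K 0 x = c • (1 : HRing E K) := by
  obtain ⟨c, hc⟩ := gen (E.zero.hom ≫ x)
  refine ⟨c, ?_⟩
  have h : x = c • (E.zero.inv ≫ η[K]) := by
    rw [← Preadditive.comp_zsmul, ← hc, Iso.inv_hom_id_assoc]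
  rw [h, zsmul_of]
  rfl

/-- Nonzero elements of the degree of a one-sided invertible element are units. -/
theorem isUnit_of_ne_zero {p : ℕ} [Fact p.Prime] (char : (p : ℤ) • η[K] = 0)
    (gen : ∀ f : 𝟙_ T ⟶ K, ∃ a : ℤ, f = a • η[K]) {N : ℤ} (a : E.S (-N) ⟶ K) (v : E.S N ⟶ K)
    (h : gmul (neg_add_cancel N) a v = E.zero.inv ≫ η[K]) (G : HRing E K)
    (g : E.S N ⟶ K) (hG : G = HRing.of E K N g) (hg : G ≠ 0) : IsUnit G := by
  obtain ⟨c, hc⟩ := exists_zsmul_one gen (gmul (add_neg_cancel N) v a)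
  obtain ⟨b, hb⟩ := exists_zsmul_one gen (gmul (neg_add_cancel N) a g)
  refine isUnit_of_rel (zsmul_one_eq_zero char) (HRing.of E K (-N) a) (HRing.of E K N v) G
    ?_ c ?_ b ?_ hg
  · rw [M.of_mul_of (neg_add_cancel N), h]
    rfl
  · rw [M.of_mul_of (add_neg_cancel N), hc]
  · rw [hG, M.of_mul_of (neg_add_cancel N), hb]

end one

open MonObj

variable {T : Type u} [Category.{v} T] [Preadditive T] [HasZeroObject T]
    [HasShift T ℤ] [∀ n : ℤ, (shiftFunctor T n).Additive] [Pretriangulated T] [IsTriangulated T]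
    [MonoidalCategory T] [SymmetricCategory T] [TensorTriangulated T] [MonoidalClosed T]
    [HasCoproducts.{0} T] [HasProducts.{0} T] [StableCat T]

theorem map_vv (D : MUData T) {K : T} [MonObj K] (u : D.R ⟶ K) [IsMonHom u] (p i : ℕ) :
    HRing.map u (vv p i D.law) = HRing.of (stdEven T) K ((p ^ i : ℤ) - 1) (D.vel p i ≫ u) := by
  rw [D.vel_spec p i, HRing.map_of]

/-- `v_i ↦ 0` for `i < n`. -/
theorem map_vv_eq_zero (D : MUData T) {p n : ℕ} [Fact p.Prime] {K : T} [MonObj K]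
    (sparse : ∀ m : ℤ, ¬ ((p : ℤ) ^ n - 1 ∣ m) → ∀ f : (stdEven T).S m ⟶ K, f = 0)
    (char : (p : ℤ) • η[K] = 0) (u : D.R ⟶ K) [IsMonHom u] (i : ℕ) (hi : i < n) :
    HRing.map u (vv p i D.law) = 0 := by
  cases i with
  | zero =>
    rw [vv_zero, map_natCast]
    have h := zsmul_one_eq_zero (E := stdEven T) char
    rwa [zsmul_one, Int.cast_natCast] at h
  | succ i =>
    have h2 : (p : ℤ) ^ (i + 1) < (p : ℤ) ^ n :=
      pow_lt_pow_right₀ (by exact_mod_cast (Fact.out : p.Prime).one_lt) hi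
    have h3 : (1 : ℤ) < (p : ℤ) ^ (i + 1) :=
      one_lt_pow₀ (by exact_mod_cast (Fact.out : p.Prime).one_lt) (by omega)
    rw [map_vv, sparse ((p : ℤ) ^ (i + 1) - 1) ?_ (D.vel p (i + 1) ≫ u)]
    · exact map_zero (DirectSum.of ((stdEven T).Gr K) _)
    · intro hd
      have := Int.le_of_dvd (by omega) hd
      omega

/-- the coefficients of index `< p^n` die -/
theorem map_coeff_eq_zero (D : MUData T) {p n : ℕ} [Fact p.Prime] {K : T} [MonObj K]
    (u : D.R ⟶ K) [IsMonHom u] (h : ∀ i < n, HRing.map u (vv p i D.law) = 0) (l : ℕ)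
    (hl : l < p ^ n) : HRing.map u (PowerSeries.coeff l (multSeries D.law.toFG p)) = 0 := by
  rcases Nat.eq_zero_or_pos l with rfl | hl0
  · rw [PowerSeries.coeff_zero_eq_constantCoeff_apply, constantCoeff_multSeries, map_zero]
  · have h1 := coeff_multSeries_mem p D.law.toFG n l fun hd => by
      have := Nat.le_of_dvd hl0 hd
      omega
    have h2 : IF p D.law.toFG n ≤ RingHom.ker (HRing.map (E := stdEven T) u) := by
      rw [IF_le_iff]
      exact fun i hi => h i hi
    exact h2 h1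

/-- The construction of `KA`. -/
theorem KA.of_coeff (D : MUData T) {p n : ℕ} [Fact p.Prime] {K : T} [MonObj K] (u : D.R ⟶ K)
    [IsMonHom u] (odd : X.Odd0 K)
    (sparse : ∀ m : ℤ, ¬ ((p : ℤ) ^ n - 1 ∣ m) → ∀ f : (stdEven T).S m ⟶ K, f = 0)
    (char : (p : ℤ) • η[K] = 0) (ne : η[K] ≠ 0) (gen : ∀ f : 𝟙_ T ⟶ K, ∃ a : ℤ, f = a • η[K])
    {A : T} (e : A ≅ (stdEven T).S ((p : ℤ) ^ n - 1)) (v : A ⟶ K) (w : 𝟙_ T ⟶ K ⊗ A)
    (hvw : w ≫ K ◁ v ≫ μ[K] = η[K])
    (hc : ∃ l ≤ p ^ n, HRing.map u (PowerSeries.coeff l (multSeries D.law.toFG p)) ≠ 0) :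
    Nonempty (KA D p n K) := by
  have hlt : ∀ i < n, HRing.map u (vv p i D.law) = 0 :=
    fun i hi => map_vv_eq_zero D sparse char u i hi
  obtain ⟨l, hl, hne⟩ := hc
  have hl' : l = p ^ n := by
    by_contra h
    exact hne (map_coeff_eq_zero D u hlt l (lt_of_le_of_ne hl h))
  subst hl'
  obtain ⟨a, ha⟩ := Z.exists_inverse (E := stdEven T) (e.inv ≫ v) (w ≫ K ◁ e.hom) (by
    rw [Category.assoc, ← MonoidalCategory.whiskerLeft_comp_assoc, Iso.hom_inv_id_assoc, hvw])
  exact ⟨{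
    u := u
    odd := odd
    sparse := sparse
    char := char
    ne := ne
    gen := gen
    vv_lt := hlt
    vv_unit := isUnit_of_ne_zero char gen a (e.inv ≫ v) ha _ _ (map_vv D u p n) hne }⟩

end Vale.Agent.P241.H795
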