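import Vale.Agent.P251.St.ToChrom
import Vale.Agent.P241.St.Defs
import Vale.Agent.P241.H795.Height
import Vale.Agent.P241.H795.KRing

/-!
# P241, KP3: from `IsMoravaK` to `KA`

`nonempty_KA` : a Morava `K`-theory of height `n ≥ 1` in the sense of the statement (associative,
any prime) is a monoid under `MU` with `v_i ↦ 0` for `i < n` and `v_n` a unit.
-/

set_option linter.unusedSectionVars false

open CategoryTheory MonoidalCategory Limits Pretriangulated MonObj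

noncomputable section

namespace Vale.Agent.P241.H795

open Vale.Agent.P251 Vale.Agent.P251.G Vale.Agent.P251.G.LC Vale.Agent.P251.I
open Vale.Agent.P251.T Vale.Agent.P251.F Vale.Agent.P251.M Vale.Agent.P217
open Vale.Agent.P251.M.EvenSpheres
open Vale.Agent.P241.St

section aux

variable {C : Type*} [Category C] [Preadditive C] [MonoidalCategory C] [MonoidalPreadditive C]

theorem push_aux_eq {A A' B B' D D' : C} {a : A ⟶ B} {θ : B ⟶ D} {j : A ⟶ A'} {s : A' ⟶ B'}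
    {θ' : B' ⟶ D} (h : a ≫ θ = j ≫ s ≫ θ') {f g : D ⟶ D'} (hfg : f = g) :
    a ≫ θ ≫ f = j ≫ s ≫ θ' ≫ g := by
  rw [hfg, reassoc_of% h]

theorem push_aux {P A Q A' W L M : C} (unit : 𝟙_ C ⟶ P) (m : P ⊗ A ⟶ Q) (q : Q ⟶ A)
    (hu : (unit ⊗ₘ 𝟙 A) ≫ m ≫ q = (λ_ A).hom) (w : P ⟶ W) (y : A ⟶ L) (z : A ⟶ M)
    (B : W ⊗ L ⟶ M) (hc : m ≫ q ≫ z = (w ⊗ₘ y) ≫ B) (i : A' ⟶ A) (j : A ⟶ A')
    (hij : i ≫ j = 𝟙 A') (y' : A' ⟶ L) (z' : A' ⟶ M) (hy : y = j ≫ y') (hz : z = j ≫ z')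
    (h0 : y' = 0) : z' = 0 := by
  have h1 : y = 0 := by rw [hy, h0, comp_zero]
  rw [h1, MonoidalPreadditive.tensor_zero, zero_comp] at hc
  have h2 : (λ_ A).hom ≫ z = 0 := by
    rw [← hu, Category.assoc, Category.assoc, hc, comp_zero]
  have h3 : z = 0 := by
    have h4 := congrArg (fun t => (λ_ A).inv ≫ t) h2
    simpa using h4
  rw [← Category.id_comp z', ← hij, Category.assoc, ← hz, h3, comp_zero]

end aux

variable {T : P251.St.SHCat} {S : P251.St.Susp T}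

section push

open P251.St (CP Cn Pn fc_cp fc_th fc_iff fc_Cn cpIso thIso cpHomeo isPair_conj ofHom toLC ofLC
  CPSet)

variable {R : P251.St.RingSp T} {K : RingA T} {u : P251.St.SHCat.Hom R.obj K.obj} {p N : ℕ}
  {o : P251.St.Oriented S R}

/-- If the push-forward of `[p](x)` on `ℂP^(N+1)` vanishes then so does the one of `x^(N+1)`. -/
theorem push_of_hasPSeriesA (h : HasPSeriesA S K u p N o)
    (t : LC.of (Gr 1 (Fin (N + 2))) ⟶ LC.of (G.Th 1 (Fin p → Fin (N + 2))))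
    (ht : Z.IsTensorPower p t)
    (e : LC.of (Gr 1 (Fin (N + 2))) ⟶ LC.of (G.Th (N + 1) (Fin (N + 1) × Fin (N + 2))))
    (he : Z.IsMultiple (N + 1) e)
    (h0 : S.mapL t ≫ P251.St.zθ o 1 _ ≫ u ▷ S.obj (Cn 1) = 0) :
    S.mapL e ≫ P251.St.zθ o (N + 1) _ ≫ u ▷ S.obj (Cn (N + 1)) = 0 := by
  obtain ⟨v, w, hvw, h⟩ := h
  have hG := Z.Cells.gr 1 (Fin (N + 2))
  have hG' := (fc_iff _).mp (fc_cp (Fin (N + 2)))
  have hE := Z.Cells.th (N + 1) (Fin (N + 1) × Fin (N + 2))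
  have hE' := (fc_iff _).mp (fc_th (N + 1) (Fin (N + 1) × Fin (N + 2)))
  have hT := Z.Cells.th 1 (Fin p → Fin (N + 2))
  have hT' := (fc_iff _).mp (fc_th 1 (Fin p → Fin (N + 2)))
  have he' : P251.St.IsPair (X := CP (Fin (N + 2)))
      (fun (x : CPSet (Fin (N + 2))) i j => if i.1 = j.1 then x.1 i.2 j.2 else 0) (fun _ => 0)
      (ofHom (X := CP (Fin (N + 2))) (Y := P251.St.Th (N + 1) (Fin (N + 1) × Fin (N + 2)))
        ((cpIso (Fin (N + 2))).hom ≫ e ≫ (thIso (N + 1) (Fin (N + 1) × Fin (N + 2))).inv)) :=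
    isPair_conj (X := CP (Fin (N + 2))) (X' := LC.of (Gr 1 (Fin (N + 2)))) (cpHomeo (Fin (N + 2)))
      (P := fun (x : Gr 1 (Fin (N + 2))) (i j : Fin (N + 1) × Fin (N + 2)) =>
        if i.1 = j.1 then x.P i.2 j.2 else 0) (v := fun _ => 0) he
  have ht' : P251.St.IsPair (X := CP (Fin (N + 2)))
      (fun (x : CPSet (Fin (N + 2))) i j => ∏ k, x.1 (i k) (j k)) (fun _ => 0)
      (ofHom (X := CP (Fin (N + 2))) (Y := P251.St.Th 1 (Fin p → Fin (N + 2)))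
        ((cpIso (Fin (N + 2))).hom ≫ t ≫ (thIso 1 (Fin p → Fin (N + 2))).inv)) :=
    isPair_conj (X := CP (Fin (N + 2))) (X' := LC.of (Gr 1 (Fin (N + 2)))) (cpHomeo (Fin (N + 2)))
      (P := fun (x : Gr 1 (Fin (N + 2))) (i j : Fin p → Fin (N + 2)) =>
        ∏ k, x.P (i k) (j k)) (v := fun _ => 0) ht
  have hc := h _ _ (ofHom (X := Pn.prod (CP (Fin (N + 2)))) (Y := CP (Fin (N + 2)))
    (λ_ (toLC (CP (Fin (N + 2))))).hom) he' ht' (fun x => rfl)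
    (ofHom (X := (Cn N).prod (Cn 1)) (Y := Cn (N + 1)) (Z.appendIso N 1).hom) (fun a b => rfl)
  have hu := S.mul_unit (X := CP (Fin (N + 2)))
    (ofHom (X := Pn.prod (CP (Fin (N + 2)))) (Y := CP (Fin (N + 2)))
      (λ_ (toLC (CP (Fin (N + 2))))).hom) (fc_cp _)
    (fun x => app_leftUnitor_smash (toLC (CP (Fin (N + 2)))) x)
  have h4 : S.mapL (cpIso (Fin (N + 2))).inv ≫ S.mapL (cpIso (Fin (N + 2))).hom = 𝟙 _ :=
    S.mapL_inv_hom hG' hG _
  have ea : S.mapL ((cpIso (Fin (N + 2))).hom ≫ t ≫ (thIso 1 (Fin p → Fin (N + 2))).inv) ≫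
      o.θ 1 _ = S.mapL (cpIso (Fin (N + 2))).hom ≫ S.mapL t ≫ P251.St.zθ o 1 _ := by
    rw [S.mapL_comp hG' hG hT', S.mapL_comp hG hT hT', Category.assoc, Category.assoc]
    rfl
  have eb : S.mapL ((cpIso (Fin (N + 2))).hom ≫ e ≫
      (thIso (N + 1) (Fin (N + 1) × Fin (N + 2))).inv) ≫ o.θ (N + 1) _ =
        S.mapL (cpIso (Fin (N + 2))).hom ≫ S.mapL e ≫ P251.St.zθ o (N + 1) _ := by
    rw [S.mapL_comp hG' hG hE', S.mapL_comp hG hE hE', Category.assoc, Category.assoc]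
    rfl
  have ea' := push_aux_eq ea (f := u ⊗ₘ 𝟙 (S.obj (Cn 1))) (g := u ▷ S.obj (Cn 1))
    (MonoidalCategory.tensorHom_id _ _)
  have eb' := push_aux_eq eb (f := u ⊗ₘ 𝟙 (S.obj (Cn (N + 1)))) (g := u ▷ S.obj (Cn (N + 1)))
    (MonoidalCategory.tensorHom_id _ _)
  exact push_aux (P := S.obj Pn) (Q := S.obj (Pn.prod (CP (Fin (N + 2)))))
    (A := S.obj (CP (Fin (N + 2)))) (A' := S.obj (ofLC (LC.of (Gr 1 (Fin (N + 2))))))
    (W := K.obj ⊗ S.obj (Cn N)) (L := K.obj ⊗ S.obj (Cn 1)) (M := K.obj ⊗ S.obj (Cn (N + 1)))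
    S.unit (S.mul Pn (CP (Fin (N + 2)))) (S.mapL (λ_ (toLC (CP (Fin (N + 2))))).hom) hu
    w _ _ _ hc _ _ h4 _ _ ea' eb' h0

end push

section main

variable {K : RingA T} {p n : ℕ}

theorem sparse_of (h : IsPeriodicFieldA K p (2 * ((p : ℤ) ^ n - 1))) (m : ℤ)
    (hm : ¬ ((p : ℤ) ^ n - 1 ∣ m)) (f : (stdEven T.C).S m ⟶ K.obj) : f = 0 := by
  rw [← cancel_epi ((stdEven T.C).sphIso (Iso.refl _) m).inv, comp_zero]
  refine h.sparse (2 * m) _ ?_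
  intro hd
  exact hm ((mul_dvd_mul_iff_left (two_ne_zero' ℤ)).1 hd)

theorem odd_of (h : IsPeriodicFieldA K p (2 * ((p : ℤ) ^ n - 1))) : X.Odd0 K.obj := by
  intro l f
  refine h.sparse (2 * l + 1) f ?_
  rintro ⟨k, hk⟩
  have : (2 : ℤ) ∣ 1 := ⟨((p : ℤ) ^ n - 1) * k - l, by linarith⟩
  omega

/-- **KP3**: Morava `K`-theories of positive height, at any prime, are monoids under `MU` with
`v_i ↦ 0` for `i < n` and `v_n` a unit. -/
theorem nonempty_KA {e : S.toSpaceFunctor.S.obj CCF ≅ (stdEven T.C).L} {D : MUData T.C}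
    (H : MUUniv e D) [Fact p.Prime] (hn : n ≠ 0) (hK : IsMoravaK S p n K) :
    Nonempty (KA D p n K.obj) := by
  unfold IsMoravaK at hK
  rw [if_neg hn] at hK
  obtain ⟨hf, R, u₀, hu₀, o, ho⟩ := hK
  have hp : 1 ≤ p ^ n := Nat.one_le_pow _ _ (Fact.out : p.Prime).pos
  obtain ⟨N, hN⟩ : ∃ N, N + 1 = p ^ n := ⟨p ^ n - 1, Nat.sub_add_cancel hp⟩
  obtain rfl : p ^ n - 1 = N := by omega
  obtain ⟨k, hk, hlaw⟩ := H.univ R.obj (Z.famK e (P251.St.zOriented o))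
  obtain ⟨l, hl, hne⟩ := exists_multSeries_ne e (P251.St.zOriented o) (K := K.obj) u₀ hf.ne p
    (p ^ n - 1) (fun t ht g hg h0 => push_of_hasPSeriesA ho t ht g hg h0)
  obtain ⟨v, w, hvw, -⟩ := ho
  have hvw' : (S.unit ≫ w) ≫ K.obj ◁ v ≫ μ[K.obj] = η[K.obj] := by
    rw [Category.assoc, ← MonoidalCategory.id_tensorHom]
    exact hvw
  have hN' : ((p ^ n - 1 : ℕ) : ℤ) = (p : ℤ) ^ n - 1 := by
    have : (((p ^ n - 1 : ℕ) : ℤ)) + 1 = (p : ℤ) ^ n := by exact_mod_cast hN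
    linarith
  refine KA.of_coeff D (k ≫ u₀) (odd_of hf) (sparse_of hf) hf.char hf.ne hf.gen
    (asIso (Z.sph e (p ^ n - 1)) ≪≫ (stdEven T.C).castIso _ _ hN') v (S.unit ≫ w) hvw'
    ⟨l, by omega, ?_⟩
  intro h0
  apply hne
  rw [← PowerSeries.coeff_map, map_multSeries, ← Law.map_toFG, ← hlaw, Law.map_toFG,
    ← map_multSeries, PowerSeries.coeff_map]
  rw [HRing.map_comp] at h0
  exact h0

end main

end Vale.Agent.P241.H795
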