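import Vale.Agent.P251.Z.MoravaP
import Vale.Agent.P241.H795.KA

/-!
# P241, KP2a: Koszul acyclic objects are `K`-acyclic, `K` associative, all primes

`KA.acyclic_of_kos` : for an associative Morava `K`-theory `K` of height `n ≥ 1` under `MU` and the
Koszul object `Z.K` of height `n` of `D.P = MU ⊗ PS`: `Z.K ⊗ W = 0` implies `K ⊗ W = 0`.
-/

open CategoryTheory MonoidalCategory Limits Pretriangulated MonObj

set_option linter.unusedSectionVars false

universe v u

noncomputable section

namespace Vale.Agent.P241.H795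

open Vale.Agent.P251 Vale.Agent.P251.T Vale.Agent.P251.M Vale.Agent.P251.S
open Vale.Agent.P251.F Vale.Agent.P251.I Vale.Agent.P251.M.EvenSpheres

section mul

variable {T : Type u} [Category.{v} T] [Preadditive T] [MonoidalCategory T]
  [MonoidalPreadditive T] [SymmetricCategory T] [MonoidalClosed T] [HasCoproducts.{0} T]
  {E : EvenSpheres T} {K : T} [MonObj K]

/-- the homotopy ring as scalars of `K ⊗ PS`, for `K` associative -/
theorem sharpTot_mul (x y : HRing E K) :
    sharpTot E K (x * y) = scMul (sharpTot E K x) (sharpTot E K y) := by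
  induction x using DirectSum.induction_on with
  | zero => rw [zero_mul, map_zero, zero_scMul]
  | of m a =>
    induction y using DirectSum.induction_on with
    | zero => rw [mul_zero, map_zero, scMul_zero]
    | of n b =>
      have h1 : HRing.of E K m a * HRing.of E K n b = HRing.of E K (m + n) (gmul rfl a b) :=
        M.of_mul_of rfl a b
      refine (congrArg (sharpTot E K) h1).trans ?_
      rw [sharpTot_of, sharpTot_of, sharpTot_of]
      exact (sharp_mul rfl a b).symm
    | add y y' hy hy' => rw [_root_.mul_add, map_add, hy, hy', map_add, scMul_add]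
  | add x x' hx hx' => rw [_root_.add_mul, map_add, hx, hx', map_add, add_scMul]

theorem sharpTot_one : sharpTot E K (1 : HRing E K) = η[K ⊗ E.PS] := by
  rw [← of_one (E := E) (R := K)]
  refine (sharpTot_of _ _).trans ?_
  exact sharp_one

/-- left multiplication by a unit of the homotopy ring is an isomorphism of `K ⊗ PS` -/
theorem isIso_smul_sharpTot {x : HRing E K} (h : IsUnit x) {N : T} (M : ModStr (K ⊗ E.PS) N) :
    IsIso (M.smul (sharpTot E K x)) := by
  obtain ⟨y, hy, hy'⟩ := isUnit_iff_exists.mp h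
  refine ⟨M.smul (sharpTot E K y), ?_, ?_⟩
  · rw [← M.smul_mul, ← sharpTot_mul, hy', sharpTot_one, M.smul_one]
  · rw [← M.smul_mul, ← sharpTot_mul, hy, sharpTot_one, M.smul_one]

end mul

variable {T : Type u} [Category.{v} T] [Preadditive T] [HasZeroObject T]
    [HasShift T ℤ] [∀ n : ℤ, (shiftFunctor T n).Additive] [Pretriangulated T] [IsTriangulated T]
    [MonoidalCategory T] [SymmetricCategory T] [TensorTriangulated T] [MonoidalClosed T]
    [HasCoproducts.{0} T] [HasProducts.{0} T] [StableCat T]
  {D : MUData T} {K : T} [MonObj K]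

/-- `K ⊗ PS` as a module over `D.P`, `K` associative -/
def modPA (u : D.R ⟶ K) [IsMonHom u] : ModStr D.P (K ⊗ (stdEven T).PS) :=
  Z.restr (u ▷ (stdEven T).PS) (ModStr.self (K ⊗ (stdEven T).PS))

theorem vs_compA (u : D.R ⟶ K) [IsMonHom u] (p i : ℕ) :
    (D.vs p i ≫ (u ▷ (stdEven T).PS) : 𝟙_ T ⟶ K ⊗ (stdEven T).PS) =
      sharpTot (stdEven T) K (HRing.map u (vv p i D.law)) := by
  rw [D.vel_spec p i, HRing.map_of, sharpTot_of]
  exact (sharp_comp _ _).symm

theorem modPA_smul (u : D.R ⟶ K) [IsMonHom u] (p i : ℕ) : (modPA u).smul (D.vs p i) =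
    (ModStr.self (K ⊗ (stdEven T).PS)).smul
      (sharpTot (stdEven T) K (HRing.map u (vv p i D.law))) := by
  rw [← vs_compA]
  exact Z.restr_smul _ _ _

namespace KA

variable {p n : ℕ} (h : KA D p n K)

include h in
theorem modPA_sm_eq_zero {i : ℕ} (hi : i < n) : (modPA h.u).sm (D.vs p i) = 0 := by
  have h1 : (modPA h.u).sm (D.vs p i) = (ModStr.self (K ⊗ (stdEven T).PS)).smul
      (sharpTot (stdEven T) K (HRing.map h.u (vv p i D.law))) := modPA_smul h.u p i
  rw [h1, h.vv_lt i hi, map_zero, ModStr.smul_zero]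

theorem isIso_modPA_smul : IsIso ((modPA h.u).smul (D.vs p n)) := by
  rw [modPA_smul]
  exact isIso_smul_sharpTot h.vv_unit _

/-- **KP2a**: Koszul acyclic objects are `K`-acyclic. -/
theorem acyclic_of_kos (h : KA D p n K) [Fact p.Prime] (hn : n ≠ 0)
    (C : KosData D.P (p : ℤ) n (D.vs p)) {W : T} (hW : Acyclic C.K W) : Acyclic K W :=
  Z.acyclic_of_acyclic_PS (stdEven T) (Z.acyclic_of_acyclic_K C (modPA h.u) (D.invData p n)
    (Nat.one_le_iff_ne_zero.mpr hn)
    (fun i hi => by rw [h.modPA_sm_eq_zero hi]; exact IsNilpotent.zero) h.isIso_modPA_smul hW)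

end KA

end Vale.Agent.P241.H795
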